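import Mathlib
import Vale.Agent.Lib.P042.helper9.Mix
import Vale.Agent.Lib.P042.helper9.Exact

namespace Vale.Agent.Results.P042.A_ExactExponent

open Vale.Agent.Lib.P042 in
/-- There are a real `γ` with `0.7343 < γ < 0.7344`, a root of `41 * 25 ^ γ + 2050 = 42025 ^ γ`,
and `c > 0` such that for every `N ≥ 1` some subset of `{1, ..., N}` of size at least
`c * N ^ γ` has no two elements differing by a positive perfect square. -/
theorem result : ∃ γ : ℝ, (7343 : ℝ) / 10000 < γ ∧ γ < 7344 / 10000 ∧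
    41 * (25 : ℝ) ^ γ + 2050 = (42025 : ℝ) ^ γ ∧
    ∃ c : ℝ, 0 < c ∧ ∀ N : ℕ, 1 ≤ N →
      ∃ A : Finset ℕ, A ⊆ Finset.Icc 1 N ∧
        (∀ a ∈ A, ∀ b ∈ A, ∀ n : ℕ, 1 ≤ n → a ≠ b + n ^ 2) ∧
        c * (N : ℝ) ^ γ ≤ (A.card : ℝ) := by
  obtain ⟨γ, h1, h2, h3⟩ := H9.exists_root
  refine ⟨γ, h1, h2, h3, ?_⟩
  obtain ⟨c, hc, h⟩ := H9.growth_exact H9.G H9.G_mono (fun n hn => H9.G_pos hn) H9.G_rec γ
    (by linarith) (le_of_eq h3.symm)
  refine ⟨c, hc, fun N hN => ?_⟩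
  obtain ⟨A, hA, hsdf, hcard⟩ := H9.exists_Icc N
  exact ⟨A, hA, hsdf, le_trans (h N hN) (by exact_mod_cast hcard)⟩

end Vale.Agent.Results.P042.A_ExactExponent
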