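import Mathlib
import Vale.Agent.Lib.P042.Growth
import Vale.Agent.Lib.P042.helper9.Mix

namespace Vale.Agent.Results.P042.A_NewExponent

open Vale.Agent.Lib.P042 in
/-- For every `N ≥ 1` there is a subset of `{1, ..., N}` of size at least `c * N ^ 0.734`
no two of whose elements differ by a positive perfect square. -/
theorem result : ∃ c : ℝ, 0 < c ∧ ∀ N : ℕ, 1 ≤ N →
    ∃ A : Finset ℕ, A ⊆ Finset.Icc 1 N ∧
      (∀ a ∈ A, ∀ b ∈ A, ∀ n : ℕ, 1 ≤ n → a ≠ b + n ^ 2) ∧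
      c * (N : ℝ) ^ ((367 : ℝ) / 500) ≤ (A.card : ℝ) := by
  obtain ⟨c, hc, h⟩ :=
    growth_of_recursion H9.G H9.G_mono (fun n hn => H9.G_pos hn) H9.G_rec
  refine ⟨c, hc, fun N hN => ?_⟩
  obtain ⟨A, hA, hsdf, hcard⟩ := H9.exists_Icc N
  exact ⟨A, hA, hsdf, le_trans (h N hN) (by exact_mod_cast hcard)⟩

end Vale.Agent.Results.P042.A_NewExponent
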